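import Crest.Agent.X212.Nkp12.Stab
import Crest.Agent.X212.Wal14.Defs
import Crest.Agent.X212.Dg64.Main
import Crest.Agent.X212.Mp86.St

/-!
# Row 212, DG at a wall of positive scalar curvature (helper12)
-/

set_option autoImplicit false
set_option linter.unusedSectionVars false
noncomputable section
open scoped Manifold ContDiff Topology
open Set Function Filter

namespace Crest.Agent.X212.Nkp12
open An An.Job M Cyf70 Nd18 Gj67 Rf65 Wal14 Clr59
open Rdc90 (Bs Har)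

section Y
variable {E3 : Type} [NormedAddCommGroup E3] [NormedSpace ℝ E3] [FiniteDimensional ℝ E3]
  [MeasurableSpace E3] [BorelSpace E3]
  {H3 : Type} [TopologicalSpace H3] {I3 : ModelWithCorners ℝ E3 H3} [I3.Boundaryless]
  {Y : Type} [TopologicalSpace Y] [ChartedSpace H3 Y] [IsManifold I3 ∞ Y] [T2Space Y]
  [MeasurableSpace Y] [BorelSpace Y] [SecondCountableTopology Y] [CompactSpace Y]
  {κ : Type} [Fintype κ] {lam : Type} [Fintype lam] {D : YD I3 Y κ lam} {β : YC Y κ lam}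
  {V : Type} [Fintype V] [DecidableEq V] {ν : V → κ → Y → ℝ} {ρ : ℝ} (S : Psc D.F ν ρ)
  {ξ : Y → β.m.A}
include S

theorem psc_fin : Psc D.F (fun i => ν ((Fintype.equivFin V).symm i)) ρ :=
  ⟨S.pos, fun _ => S.sm _, fun _ => S.P _, fun _ => S.par _, fun i j x => by simp [S.ort],
    fun b l x => by rw [S.ric, (Fintype.equivFin V).symm.sum_comp fun i => ν i b x * ν i l x], S.sc⟩

theorem har_u (b : Bs D β) (p : ParY D β ξ) (u : V → ℝ) :
    Har D β fun k y => ∑ i, u i • ν i k y • ξ y := by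
  have q := fun i => (parS D β).smul_mem (u i) p
  simp only [smul_comm (u _) (ν _ _ _)]
  have P : ∀ k y, ∑ l, D.F.P k l y • ∑ i, ν i l y • u i • ξ y = ∑ i, ν i k y • u i • ξ y :=
    fun k y => by
    simp only [Finset.smul_sum, ← mul_smul _ (ν _ _ _)]
    rw [Finset.sum_comm]
    simp only [← Finset.sum_smul, S.P]
  have c : ∀ j k y, Wz78.cov I3 D.F.e D.F.Gam (Rdc90.A0 β) (fun k y => ∑ i, ν i k y • u i • ξ y)
      j k y = 0 := fun j k y => (S.cov_sum (ξ := fun i => u i • ξ) (fun i => (q i).sm y) j k).trans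
    (Finset.sum_eq_zero fun i _ => by rw [(q i).par, smul_zero])
  exact ⟨⟨fun k => contMDiff_finsetSum fun i _ => (S.sm i k).smul (q i).sm, fun k y =>
    sum_mem fun i _ => (β.m.gS y).smul_mem _ ((q i).mem y), P⟩,
    fun j k y => by rw [Rd78.ed_cov (P · y), c, c, sub_zero],
    fun y => (Rd78.dv1_cov (Rd78.riem_Y b.ok) (P · y)).trans (by
      simp only [c, Finset.sum_const_zero])⟩

theorem inj_u (h0 : ξ ≠ 0) {u : V → ℝ} (h : ∀ k y, ∑ i, u i • ν i k y • ξ y = 0) : u = 0 := by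
  obtain ⟨y, hy⟩ := Function.ne_iff.1 h0
  funext j
  have : ∑ k, ν j k y * ∑ i, u i * ν i k y = 0 := Finset.sum_eq_zero fun k _ =>
    mul_eq_zero_of_right _ ((smul_eq_zero.1 (by
      simpa only [Finset.sum_smul, mul_smul] using h k y)).resolve_right hy)
  simp only [Finset.mul_sum, mul_left_comm _ (u _)] at this
  rw [Finset.sum_comm] at this
  simpa [← Finset.mul_sum, S.ort] using this

theorem sur_u (b : Bs D β) (h1 : dz D β = 1) (p : ParY D β ξ) (h0 : ξ ≠ 0) {η : κ → Y → β.m.A}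
    (h : Har D β η) : ∃ u : V → ℝ, (fun k y => ∑ i, u i • ν i k y • ξ y) = η := by
  obtain ⟨k1, k2⟩ := Sym93.har_dec (psc_fin S) b h
  choose c hc using fun i => (finrank_eq_one_iff_of_nonzero' (K := ℝ) (⟨ξ, p⟩ : parS D β)
    fun e => h0 (congrArg Subtype.val e)).1 (dz_def.symm.trans h1) ⟨_, k1 i⟩
  refine ⟨fun v => c (Fintype.equivFin V v), funext₂ fun k y => ?_⟩
  rw [k2, ← (Fintype.equivFin V).symm.sum_comp]
  exact Finset.sum_congr rfl fun i _ => by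
    beta_reduce
    rw [Equiv.apply_symm_apply, smul_comm]
    exact congrArg _ (congrFun (congrArg Subtype.val (hc i)) y)

end Y

variable {Wi : Type} {X : Mf 4} {A κ lam : Type} [Fintype A] [Fintype κ] [Fintype lam]
  [DecidableEq lam] {M : Mark X A κ} {W : World M} {L : ML M lam} {Λ : Lns W L}
  {A' h : Type} [Fintype A'] [DecidableEq A'] [Fintype h] {r n : ℕ}
  {J : Job Wi Λ A' h r n} {σ : Cel A'} {a : A'} {V : Type} [Fintype V] [DecidableEq V]
  {q₀ : Wi →₀ ℝ} {δ η : ℝ}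

/-- the inside of a regular face object is reducible -/
theorem red_in {c : M.Cl} {y : J.Obc c} {x : A} {p : Prt A A' h} {b : Bp J c} {E : EC b p V δ}
    {x' : Mod61.Pnt E.o r} {ψ : E.K} (C : Cx σ q₀ y x E x' ψ) :
    Red (J.G c y.s).F y.x (W.pc c (hp x false)) := by
  by_contra k
  have := (Sym93.symR C.ph C.sp C.se C.ch C.cs.sm C.reg (P₁ := {hp x true, hp x false}) C.P.ge
    (by rintro _ (rfl | rfl); exacts [.inl C.tf, .inr k])).1
  have hx : x ∈ cylW c := C.cw.ge rfl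
  have e : {i : Ed c | ∃ π ∈ ({hp x true, hp x false} : Set _), π i.1 = some i.2} =
      {(⟨x, hx⟩, true), (⟨x, hx⟩, false)} := by
    ext ⟨⟨z, hz⟩, v⟩
    cases v <;> simp [Mp86.St.hp_some]
  rw [C.dm, stb, e, finsum_mem_pair (by simp), C.dz, C.dz, min_eq_right (Nat.pos_of_ne_zero C.r0)]
    at this
  norm_num at this

variable {d : DV J σ a V} {ν : V → κ → d.Y → ℝ} {ξ : d.Y → HS (Fin d.N)}
  {bS : (W.Z (J.cf a)).M → CL (V → ℝ) (Fm (Option κ) (HS (Fin d.N)))}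
  {d₀ : Option κ → (W.Z (J.cf a)).M → ℝ} (P : Pw d δ ν ξ q₀)

theorem tr_rows {Q : (Option κ → d.Y → En (Fin d.N)) → Prop} (h : Q (d.β 0).W) :
    Q ((rows d δ η ν ξ bS d₀).β 0).W :=
  (congrArg Q (funext₂ fun i y => congrArg (fun v : Fm _ (HS (Fin d.N)) => d.AZ i y + opL (v i))
    ((map_zero _).trans (map_zero _).symm))).mp h

include P

theorem py_pw : PY d.D (Fintype.card V) :=
  have := P.sub
  ⟨Fintype.card_le_one_iff_subsingleton.2 this, P.ps, P.psc.elim fun _ S => ⟨_, _, psc_fin S⟩⟩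

theorem bs_rows : Bs d.D ((rows d δ η ν ξ bS d₀).β 0) :=
  tr_rows (Q := fun w => Bs d.D ⟨(d.β 0).m, w, d.ΦZ, 0⟩) P.bs

theorem dz_rows : dz d.D ((rows d δ η ν ξ bS d₀).β 0) = 1 :=
  tr_rows (Q := fun w => dz d.D ⟨(d.β 0).m, w, d.ΦZ, 0⟩ = 1) P.dz

theorem par_rows : ParY d.D ((rows d δ η ν ξ bS d₀).β 0) ξ :=
  tr_rows (Q := fun w => ParY d.D ⟨(d.β 0).m, w, d.ΦZ, 0⟩ ξ) P.par

theorem mv_rows : Mv (rows d δ η ν ξ bS d₀) := by
  obtain ⟨ρ, S⟩ := P.psc
  have e : ∀ u, bz (rows d δ η ν ξ bS d₀) u = fun k y => ∑ i, u i • ν i k y • ξ y := fun u =>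
    funext₂ fun k y => show bV d ν ξ y u (some k) = _ by simp [bV, fa_kk, cν]
  exact ⟨fun u => e u ▸ har_u S (bs_rows P) (par_rows P) u,
    fun u k => inj_u (β := d.β 0) S P.ne fun j y => congrFun₂ ((e u).symm.trans k) j y,
    fun _ k => (sur_u S (bs_rows P) (dz_rows P) (par_rows P) P.ne k).imp fun u => (e u).trans⟩

omit P in
/-- **DG** at a wall of positive scalar curvature -/
theorem dgW (hP : PJ J (J.cf a)) : ∃ e > 0, ∀ σ (V : Type) [Fintype V] [DecidableEq V]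
    (d : DV J σ a V) q₀ δ η ν ξ bS d₀ y (p : Prt A A' h) (b : Bp J (J.cf a)) (E : EC b p V δ) x ψ,
    δ < e → Pw d δ ν ξ q₀ → (rows d δ η ν ξ bS d₀).OK q₀ δ → (rows d δ η ν ξ bS d₀).IsoS q₀ δ 8 →
    Job.Iso d.y y → Cx σ q₀ y d.x E x ψ → ¬y.TF (hp d.x false) →
    (rows d δ η ν ξ bS d₀).DG q₀ δ 8 := by
  have : ∃ e > 0, ∀ x ∈ cylW (J.cf a), J.hd a = some x → ∀ β, Bs (J.xs x).D β →
      Tl47.DR (J.xs x).D β e := by
    by_cases k : ∃ x ∈ cylW (J.cf a), J.hd a = some x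
    · obtain ⟨x, k1, k2⟩ := k
      have := J.conn_xs x
      obtain ⟨_, py⟩ := hP.py x k1
      exact (Tl47.deceU py).imp fun e k => ⟨k.1, fun x' _ k3 =>
        Option.some.inj (k2.symm.trans k3) ▸ k.2⟩
    · exact ⟨1, one_pos, fun x k1 k2 => (k ⟨x, k1, k2⟩).elim⟩
  refine this.imp fun e k => ⟨k.1, fun σ V _ _ d q₀ δ η ν ξ bS d₀ y p b E x ψ hδ P H S I C h0 => ?_⟩
  have pc : M.sys.Piece (J.cf a).1 (hp d.x false) :=
    (Set.ext fun _ => Gb50.mem_cf P.ok : (J.cf a).1 = {d.x}) ▸ Mp86.St.piece_hp false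
  obtain ⟨hs, u, ζ, ce, -⟩ := I
  have A := adS P.ok
  have hG := P.ok.ok.G_ok P.ok.mem P.ok.sol.ov
  have T := Wrd81.eqOn_same A.hB hG hG (fun _ _ _ => ⟨rfl, rfl⟩) (Eqv71.ad0 P.ok.sol.sol.toAdm)
    (hs ▸ Eqv71.ad0 C.sol.sol.toAdm) ce (Cyl58.isClopen_pc _ pc).2 (subset_univ _)
  exact Dg64.dg H (Gb50.geo H) (Gb50.base H) (nkdR H P.nil (k.2 _ (C.cw.ge rfl) P.ok.hd _ (bs_rows P))
    (hu_of H (mv_rows P)) hδ) (stab H S (py_pw (d := d) P) (bs_rows (d := d) P) (mv_rows P)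
    (dz_rows (d := d) P) pc
    (Mp86.St.hp_some.2 ⟨rfl, rfl⟩) (fun t => h0 (T.sp.1 t)) (T.red.2 (hs ▸ red_in C))) 8

end Crest.Agent.X212.Nkp12
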