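import Crest.Agent.X212.Wal14.Defs
import Crest.Agent.X212.Mp86.St

/-!
# Row 212, the regular chart of a face object (helper12)
-/

set_option autoImplicit false
set_option linter.unusedSectionVars false
noncomputable section
open Set Function

namespace Crest.Agent.X212.Nkp12
open An An.Job M Nd18 Rf65 Wal14 Mp86.St Pte3

variable {Wi : Type} {X : Mf 4} {A κ lam : Type} [Fintype A] [Fintype κ] [Fintype lam]
  [DecidableEq lam] {M : Mark X A κ} {W : World M} {L : ML M lam} {Λ : Lns W L}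
  {A' h : Type} [Fintype A'] [DecidableEq A'] [Fintype h] {r n : ℕ}
  {J : Job Wi Λ A' h r n} {c : M.Cl} {σ : Cel A'} {q : Wi →₀ ℝ} {δ : ℝ} {y : J.Obc c} {x : A}

theorem θ_cx {V : Type} [Fintype V] [DecidableEq V] {p : Prt A A' h} {b : Bp J c} {E : EC b p V δ}
    {x' : Mod61.Pnt E.o r} {ψ : E.K} (H : Cx σ q y x E x' ψ) : b.θ p V x'.t = y.s := funext fun a => by
  by_cases k : a ∈ p.V
  · exact (θ_V k).trans (H.ch.rep.s ⟨a, k⟩)
  rw [θ_off k]
  cases e : σ a with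
  | some v => exact (H.ch.ov.1.1 a v e).trans (H.sol.cell.1 a v e).symm
  | none =>
    obtain ⟨z, h1, h2⟩ : ∃ z, J.hd a = some z ∧ z ∈ c.1 := by
      by_contra f
      exact k (H.hV a e fun z h1 h2 => f ⟨z, h1, h2⟩)
    obtain ⟨a1, k1, k2⟩ := H.ph.ok.inf σ H.ph.mem _ H.ch.ov.1 z (H.ch.ov.2.ge h2)
    obtain ⟨a2, k3, k4⟩ := H.ph.ok.inf σ H.ph.mem _ H.sol.ov.1 z (H.sol.inf.ge h2)
    obtain rfl := H.ph.ok.inj _ _ z k1 h1
    obtain rfl := H.ph.ok.inj _ _ z k3 h1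
    exact k2.trans k4.symm

variable (J c x) in
/-- the names of the moving limits of the face -/
abbrev VW : Type := UU {hp x true, hp x false} (zw J c) (cylW c)

theorem cx_of [DecidableEq (VW J c x)] {sh : Set A'} {n₀ : ℤ} (H : AnH J c δ sh σ) (hy : Sol σ q y)
    (f : Fc J c σ n₀ y x) (rg : RegW J c δ sh σ q y x) (hu : J.unc c = univ)
    (h1 : dz (J.xs x).D (y.β x true) = 1) (h2 : dmy δ y (pW J c sh σ x) = 2)
    (hV : ∀ a, σ a = none → (∀ x, J.hd a = some x → x ∉ c.1) → a ∈ (pW J c sh σ x).V) :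
    Subsingleton (VW J c x) ∧ ((∀ β, Rdc90.Bs (J.xs x).D β → dh (J.xs x).D β = 0) →
      IsEmpty (VW J c x)) ∧ (PY (J.xs x).D (Fintype.card (VW J c x))) ∧
    ∃ (b : Bp J c) (E : EC b (pW J c sh σ x) (VW J c x) δ) (x' : Mod61.Pnt E.o r) (ψ : E.K),
      Cx σ q y x E x' ψ := by
  obtain ⟨b, E, x', ψ, g, rg⟩ := rg
  have e := f.2.1
  have hx : x ∈ cylW c := ⟨e.ge rfl, f.2.2.1⟩
  have cw : cylW c = {x} := Subset.antisymm (fun _ k => e.le k.1) (singleton_subset_iff.2 hx)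
  have wl : Wl J c := ⟨H.ok, H.pj, H.wl⟩
  have un : W.un c {hp x true, hp x false} = univ := eq_univ_of_forall fun z =>
    let ⟨_, h1, h2⟩ := Cyl58.exists_pc W.toCaps z
    mem_biUnion (eq_hp (e ▸ h1)) h2
  have hH : y.H = univ := (hy.H_eq f.2.2.2.1.1).trans hu
  have jz : jz y = cylW c := sep_eq_self_iff_mem_true.2 f.2.2.2.1.2
  have i1 : ∀ i : Ed c, i.1 = ⟨x, hx⟩ := fun i => Subtype.ext (cw.le i.1.2)
  have ed : ∀ i : Ed c, i ∈ EdP c {hp x true, hp x false} := fun ⟨a, v⟩ =>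
    ⟨hp x v, by cases v <;> simp, hp_some.2 ⟨cw.le a.2, rfl⟩⟩
  have d1 : ∀ i : Ed c, dz (J.xs i.1).D (y.β i.1 i.2) = 1 := fun ⟨⟨a, ha⟩, v⟩ => by
    obtain rfl : a = x := cw.le ha
    cases v
    exacts [(bk hy a (jz.ge ha)).symm ▸ h1, h1]
  obtain ⟨m, py⟩ := H.pj.py x hx
  have nu := H.wl x _ m (H.ok.xs x).1.yd (H.pj.nil x hx).1 py
  have zm : ∀ i : Ed c, (i ∈ zw J c ↔ m = 0) ∧ (i ∈ cz y ↔ m = 0) := fun ⟨⟨a, ha⟩, v⟩ => by
    obtain rfl : a = x := cw.le ha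
    have k := nu.1 _ (hy.crit a ha v)
    have k1 := (nu.2.1 _ k).1
    have k2 := d1 (⟨a, ha⟩, v)
    rw [show dz _ (y.β a v) = 1 from k2, mul_one] at k1
    exact ⟨⟨fun z => k1.symm.trans (z _ k), fun z β hβ => by rw [(nu.2.1 β hβ).1, z, zero_mul]⟩,
      fun z => k1.symm.trans (z.resolve_right fun z => absurd (k2.symm.trans z) (by decide)),
      fun z => .inl (k1.trans z)⟩
  have z := fun i => (zm i).1.trans (zm i).2.symm
  have ky : ∀ i : Ed c, ky (cylW c) i = (⟨x, hx⟩, false) := fun i => (if_pos i.1.2).trans (i1 i ▸ rfl)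
  have sub : Subsingleton (VW J c x) := ⟨fun ⟨_, i, _, _, a⟩ ⟨_, j, _, _, a'⟩ =>
    Subtype.ext (a.symm.trans ((ky i).trans ((ky j).symm.trans a')))⟩
  have em : m = 0 → IsEmpty (VW J c x) := fun k => ⟨fun ⟨_, i, _, a, _⟩ => a ((zm i).1.2 k)⟩
  have pok := H.loc.pok σ H.mem c {hp x true, hp x false} _ univ (fun _ k => k.elim (· ▸ hp_mem e true)
    (· ▸ hp_mem e false)) subset_rfl
  refine ⟨sub, fun k => em ((zm (⟨x, hx⟩, true)).1.1 k), ?_, b, E, x', ψ,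
    ⟨⟨H.ok, H.mem, pok⟩, g.ch.ok, g.ch.ov, g.sm⟩, ⟨H.ok, H.mem, pok, H.pj, g.ch.hμ ▸ muOK _⟩, H.spl,
    hy, g.ch.hμ ▸ solE0 (p := pW J c sh σ x) wl ⟨hy.cell, hy.inf, hy.sol.toAdm,
      fun _ hz => (hz (un.ge trivial)).elim, fun z _ => hy.sol.D z, fun z _ => hy.sol.C z, hy.sol.S,
      fun i _ => hy.cut i (hH.ge trivial), fun a b ha _ => hy.lim a b ha,
      fun a ha b _ => hy.crit a ha b, hy.int.integrableOn⟩
      (by rintro _ (rfl | rfl) <;> exact .inl ⟨x, hx, by simp [hp]⟩) (fun i _ => z i) jz (bk hy),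
    g.ch.hμ.symm ▸ g.ch, rg, rfl, un, un, eq_univ_of_forall fun i => ⟨trivial, fun w hw => ?_⟩, hV, cw,
    f.2.2.2.2, H.r0, d1, ?_, ?_, fun v i => ?_⟩
  · obtain rfl | rfl := Nat.le_one_iff_eq_zero_or_eq_one.1 py.b1
    · have := em rfl
      rwa [Fintype.card_eq_zero]
    · have : Unique (VW J c x) := uniqueOfSubsingleton ⟨_, (⟨x, hx⟩, true), ed _,
        fun k => one_ne_zero ((zm _).1.1 k), rfl⟩
      rwa [Fintype.card_unique]
  · have := M.con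
    obtain ⟨π, k1, k2⟩ := Sys.exists_piece c.2 (disjoint_left.1 (hu.ge (mem_univ i)) hw)
    exact mem_biUnion (eq_hp (e ▸ k1)) k2
  · have : {i : Ed c | ∃ π ∈ ({hp x true} : Set _), π i.1 = some i.2} = {(⟨x, hx⟩, true)} := by
      ext ⟨⟨z, hz⟩, v⟩
      simp [hp_some]
    rw [stb, this, finsum_mem_singleton, h1]
  · refine (congrArg _ (Fintype.card_congr (α := VW J c x) (β := UU _ (cz y) (Rf65.jz y))
      (Equiv.subtypeEquivRight fun u => exists_congr fun i =>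
      and_congr_right fun _ => ?_))).trans h2
    rw [z i, jz]
  · obtain ⟨_, j, -, k, -⟩ := id v
    rw [g.ch.hμ]
    exact (dif_pos ⟨ed i, fun a => k ((zm j).1.2 ((zm i).1.1 a))⟩).trans (congrArg _ (sub.elim _ _))

end Crest.Agent.X212.Nkp12
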