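import Crest.Agent.X212.Dg64.Defs
import Crest.Agent.X212.Nfo63.Loc
import Crest.Agent.X212.Pat85.Fj
import Crest.Agent.X212.Rdc90.Main
import Crest.Agent.X212.Sym93.Trp
import Crest.Agent.X212.Tl47.Lj

/-!
# Row 212, DG-NKDP (helper12): exponential decay on long necks of positive scalar curvature
-/

set_option autoImplicit false
set_option linter.unusedSectionVars false
noncomputable section
open scoped Manifold ContDiff Topology InnerProductSpace
open MeasureTheory Set Function Filter Real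

namespace Crest.Agent.X212.Nkp12
open An An.Job M Sob92 Cyf70 Pj41 Tmp64 Nd18 Bki64 Gj67 Wz78
open Rdc90 (Bs Har bh Eqs)
open Rf65 (PY dz ParY)

section nk
variable {E3 : Type} [NormedAddCommGroup E3] [NormedSpace ℝ E3] [FiniteDimensional ℝ E3]
  [MeasurableSpace E3] [BorelSpace E3]
  {H3 : Type} [TopologicalSpace H3] {I3 : ModelWithCorners ℝ E3 H3} [I3.Boundaryless]
  {Y : Type} [TopologicalSpace Y] [ChartedSpace H3 Y] [IsManifold I3 ∞ Y] [T2Space Y]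
  [MeasurableSpace Y] [BorelSpace Y] [SecondCountableTopology Y] [CompactSpace Y]
  {κ : Type} [Fintype κ] {lam : Type} [Fintype lam] {D : YD I3 Y κ lam}
  {E : Type} [NormedAddCommGroup E] [NormedSpace ℝ E] [FiniteDimensional ℝ E]
  [MeasurableSpace E] [BorelSpace E]
  {HM : Type} [TopologicalSpace HM] {I : ModelWithCorners ℝ E HM} [I.Boundaryless]
  {Z : Type} [TopologicalSpace Z] [ChartedSpace HM Z] [IsManifold I ∞ Z]
  [MeasurableSpace Z] [BorelSpace Z] [T2Space Z] [SecondCountableTopology Z]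
  {B : Base Z (Option κ) lam} {G : Geo I Z (Option κ) lam} (K : Nk D B G) {r m : ℕ}
  {c : Cfg Z (Option κ) lam r} {τ : Pt Z (Option κ) lam r m}

theorem adm_nk (hc : c.Adm B G) : AdmOn (K.pb c) D.B D.G (univ ×ˢ K.J) :=
  K.src ▸ (nk_gRel K).admOn_iff.2 ((admOn_univ.2 hc).mono (subset_univ _))

theorem eqs_nk (h : c.Sol B G τ) {S : Set ℝ} (e : S ⊆ K.J)
    (h0 : ∀ z, K.tm z ∈ S → τ.D c z = 0 ∧ τ.C c z = 0) : Eqs D (K.pb c) (univ ×ˢ S) := fun z hz => by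
  have hs := K.mem_src.2 (e hz.2)
  obtain ⟨a, b⟩ := h0 (K.ψ z) (K.tm_ψ z hs ▸ hz.2)
  have e1 : (K.pb c).m.Fg D.Z (K.pb c).W z = c.m.Fg G.F c.W (K.ψ z) := K.rel.Fg hs c.W
  have e2 : D.B.sd z = B.sd (K.ψ z) := by
    funext s t
    simp only [Base.sd, Base.st, Base.a2, K.o _ _ _ _ z hs, K.P _ _ z hs]
  have e3 : (K.pb c).m.p2 D.B z = c.m.p2 B (K.ψ z) := congrArg (idx · _) e2
  have h1 := h.D (K.ψ z)
  have h2 := h.C (K.ψ z)
  rw [Cfg.eD, a, sub_zero] at h1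
  rw [Cfg.eC, b, sub_zero, sub_eq_zero] at h2
  refine ⟨(K.rel.dir hs (fun _ => rfl) (fun _ => rfl) (.of_forall fun _ => rfl)).trans h1, ?_⟩
  rw [Md.mu, e1, e3]
  exact h2

end nk

variable {Wi : Type} {X : Mf 4} {A κ lam : Type} [Fintype A] [Fintype κ] [Fintype lam]
  [DecidableEq lam] {M : Mark X A κ} {W : World M} {L : ML M lam} {Λ : Lns W L}
  {A' h : Type} [Fintype A'] [DecidableEq A'] [Fintype h] {r n : ℕ}
  {J : Job Wi Λ A' h r n} {σ : Cel A'} {a : A'}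
  {U Up R : Type} [NormedAddCommGroup U] [NormedSpace ℝ U] [NormedAddCommGroup Up]
  [NormedSpace ℝ Up] [NormedAddCommGroup R] [NormedSpace ℝ R] {d : Dat J σ a U Up R}
  {q₀ : Wi →₀ ℝ} {δ : ℝ}

variable (d) in
/-- the small harmonic deformations are moving limits -/
def HU : Prop := ∃ C, ∀ η, Har d.D (d.β 0) η → ∀ B ≥ 0, (∀ i, d.D.F.CB 0 (η i) B) →
  ∃ u, ‖u‖ ≤ C * B ∧ d.β u = bh (d.β 0) η 0

variable (H : d.OK q₀ δ)
include H

theorem s1 : d.y.s a = 1 := by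
  obtain ⟨a', e1, e2⟩ := H.ok.inf σ H.mem _ (J.cl_dom H.sol.cell) d.x
    ((d.hb true).2.1.2 (d.hb true).2.2.2)
  exact (congrArg d.y.s (H.ok.inj a a' _ H.hd e1)).trans e2

/-- no terms deep in the long neck -/
theorem deep0 (hN : Ink3.Nil (J.xs d.x).N ∧ (J.xs d.x).ty = 0) {α : Type} {l : Filter α} {q : α → Wi →₀ ℝ} {y : α → J.Obc M.c0}
    (hq : St.Cv l q q₀) (hy : ∀ᶠ i in l, Sol σ (q i) (y i))
    (hs : Tendsto (fun i => (y i).s) l (𝓝 d.y.s)) : ∃ t, ∀ᶠ i in l,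
    ∀ ha : Act J.m M.c0 d.x none (J.Θ (y i).s), ∀ z ∈ (J.K _ d.x none _ ha).dp t,
      (J.τ _ (q i) (y i).s).D (y i).x z = 0 ∧ (J.τ _ (q i) (y i).s).C (y i).x z = 0 := by
  classical
  obtain ⟨T, h1, -⟩ := hq
  obtain ⟨s₀, k0, k1⟩ := H.ok.lin
  let P := fun i => Sol σ (q i) (y i) ∧ J.ν d.x (y i).s = 1 ∧ Act J.m M.c0 d.x none (J.Θ (y i).s)
  obtain ⟨t, ht⟩ := Nfo63.loc (l := comap Subtype.val l) (s := fun i : {i // P i} => (y i).s) H.ok
    H.mem (fun i => ⟨i.2.1.cell, i.2.1.inf⟩) (hs.comp tendsto_comap) H.sol.cell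
    ((d.hb true).2.1.2 (d.hb true).2.2.2) (fun i => i.2.2.2) (Pat85.dj H.ok) (fun i => i.2.2.1)
    (q := fun i => q i) (T := T ∪ q₀.support) fun w hw i => by
      rw [Finset.notMem_union] at hw
      rw [h1 _ w hw.1, Finsupp.notMem_support_iff.1 hw.2]
  refine ⟨t, ?_⟩
  filter_upwards [eventually_comap.1 ht, hy, (((continuous_apply a).tendsto _).comp hs).eventually
    (lt_mem_nhds (k0.trans_eq (s1 H).symm))] with i k2 k3 k4 ha z hz
  have := k2 ⟨i, k3, (k1 a _ H.hd _ k4.le).2 ha.1, ha⟩ rfl (y i).x z hz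
  rwa [show (J.xs d.x).q (q i) = 0 by simp [Xs.q, hN.2], hN.1.pt] at this

/-- **NKD** at a wall of positive scalar curvature -/
theorem nkdR (hN : Ink3.Nil (J.xs d.x).N ∧ (J.xs d.x).ty = 0) {e : ℝ} (h1 : Tl47.DR d.D (d.β 0) e)
    (hU : HU d) {δ' : ℝ} (hδ : δ' < e) : d.NkD q₀ δ' := by
  obtain ⟨C, hC⟩ := hU
  refine ⟨e, hδ, fun α 𝒰 q y hq hy hD j B hB => ?_⟩
  have c0 : 0 < |C| + 1 := by positivity
  obtain ⟨η, p, h2⟩ := h1 j _ (div_pos hB c0)
  obtain ⟨t, h3⟩ := deep0 H hN hq hy hD.s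
  obtain ⟨T, h4⟩ := hD.neck d.x ⟨(d.hb true).2.2.2, (d.hb true).1⟩ η p
  refine ⟨max T (t + η⁻¹), ?_⟩
  filter_upwards [h3, h4, hy] with i k1 ⟨ha, k2⟩ k3
  by_cases hl : max T (t + η⁻¹) ≤ nl ((J.Θ (y i).s).2 d.x) - max T (t + η⁻¹)
  swap
  · exact ⟨ha, 0, 1, 0, by simpa using hB.le, fun s hs => (hl (hs.1.trans hs.2)).elim⟩
  have nk := H.ok.nk _ _ _ _ ha
  obtain ⟨η', a1, a2, -, -, a3⟩ := h2 _ ((J.K _ d.x none _ ha).pb (y i).x) _ _ hl fun s hs => by
    have m1 := (le_max_left _ _).trans hs.1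
    have m2 := (le_max_right _ _).trans hs.1
    have m3 := hs.2.trans (sub_le_sub_left (le_max_left _ _) _)
    have m4 := hs.2.trans (sub_le_sub_left (le_max_right _ _) _)
    obtain ⟨b1, b2⟩ := k2 s ⟨m1, m3⟩
    rw [(H.β false).1] at b2
    refine ⟨(adm_nk _ k3.sol.toAdm).mono (prod_mono_right b1),
      eqs_nk _ k3.sol b1 fun z hz => k1 ha z ?_, b2⟩
    rw [Nk.dp, mem_preimage, nk.lo, nk.hi]
    simp only [Dp, reduceCtorEq, if_false, Option.elim_none, Option.mem_def, Option.some.injEq,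
      forall_eq', mem_ofPred_eq]
    constructor <;> linarith [hz.1, hz.2]
  obtain ⟨u, u1, u2⟩ := hC η' a1 _ (div_pos hB c0).le fun k => CB_of_le (a2 k) j.zero_le
  have le : B / (|C| + 1) ≤ B := div_le_self hB.le (by linarith [abs_nonneg C])
  rw [← u2] at a3
  obtain ⟨v, hv⟩ := a3
  refine ⟨ha, u, 1, v, u1.trans ?_, fun s hs => (hv s hs).mono (win_op _ _) Subset.rfl le_rfl ?_⟩
  · rw [← mul_div_assoc, div_le_iff₀ c0]
    nlinarith [le_abs_self C]
  · exact mul_le_mul_of_nonneg_right le (exp_pos _).le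

theorem nkd (hN : Ink3.Nil (J.xs d.x).N ∧ (J.xs d.x).ty = 0) {b : ℕ} (py : PY d.D b)
    (hβ : Bs d.D (d.β 0)) (hU : HU d) : ∃ e > 0, ∀ δ' < e, d.NkD q₀ δ' :=
  have := J.conn_xs d.x
  (Tl47.deceU py).imp fun _ k => ⟨k.1, fun _ => nkdR H hN (k.2 _ hβ) hU⟩

variable (d) in
/-- the forms of the moving limits -/
abbrev bz (u : U) (k : κ) (y : d.Y) : (d.β 0).m.A := d.bZ y u (some k)

variable (d) in
/-- the moving limits are the harmonic forms -/
structure Mv : Prop where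
  har : ∀ u, Har d.D (d.β 0) (bz d u)
  inj : ∀ u, bz d u = 0 → u = 0
  sur : ∀ η, Har d.D (d.β 0) η → ∃ u, bz d u = η

theorem bz_none (y : d.Y) (u : U) : d.bZ y u none = 0 := by
  have k : ∀ᶠ u in 𝓝 (0 : U), d.bZ y u none = 0 := H.crit.mono fun u k => by
    have e0 : d.AZ none y + opL (d.bZ y 0 none) = 0 := H.crit.self_of_nhds.tmp y
    have e1 : d.AZ none y + opL (d.bZ y u none) = 0 := k.tmp y
    rw [← hsL_opL (d.bZ y u none), add_left_cancel (e1.trans e0.symm)]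
    simp
  obtain ⟨t, h0, ht⟩ := (eventually_mem_nhdsWithin.and ((show Tendsto (fun t : ℝ => t • u) (𝓝 0) (𝓝 0)
    from (continuous_id.smul continuous_const).tendsto' _ _ (zero_smul _ _)).mono_left
    (nhdsWithin_le_nhds (s := {0}ᶜ)) k)).exists
  have : t • d.bZ y u none = 0 := by simpa using ht
  exact (smul_eq_zero.1 this).resolve_left h0

theorem β_eq (u : U) : d.β u = bh (d.β 0) (bz d u) 0 := by
  have e : (fun i y => d.AZ i y + opL (d.bZ y u i)) = (bh (d.β 0) (bz d u) 0).W :=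
    funext₂ fun i y => by cases i <;> simp [bh, vr, Md.addC, Dat.β, bz_none H]
  have e' : d.ΦZ = (bh (d.β 0) (bz d u) 0).Φ := funext fun y => (add_zero _).symm
  exact congrArg₂ (fun W Φ => (⟨(d.β 0).m, W, Φ, 0⟩ : YC _ _ _)) e e'

theorem hu_of [FiniteDimensional ℝ U] (m : Mv d) : HU d := by
  let T : U →ₗ[ℝ] κ → C(d.Y, (d.β 0).m.A) :=
    { toFun := fun u k => ⟨bz d u k, ((m.har u).sm k).continuous⟩
      map_add' := fun u v => by ext k y : 2; simp [bz]; rfl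
      map_smul' := fun c u => by ext k y : 2; simp [bz]; rfl }
  obtain ⟨C, -, hC⟩ := T.exists_antilipschitzWith (LinearMap.ker_eq_bot'.2 fun u e => m.inj u
    (funext₂ fun k y => congrArg (fun f : κ → C(d.Y, (d.β 0).m.A) => f k y) e))
  refine ⟨C, fun η hη B h0 hB => ?_⟩
  obtain ⟨u, rfl⟩ := m.sur η hη
  refine ⟨u, ?_, β_eq H u⟩
  have := hC.le_mul_dist u 0
  rw [map_zero, dist_zero_right, dist_zero_right] at this
  exact this.trans (mul_le_mul_of_nonneg_left ((pi_norm_le_iff_of_nonneg h0).2 fun k =>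
    (ContinuousMap.norm_le _ h0).2 (CB_zero.1 (hB k))) C.2)

omit H in
/-- without harmonic forms there is nothing to move -/
theorem mv_lens [Subsingleton U] (py : PY d.D 0) (hβ : Bs d.D (d.β 0)) : Mv d := by
  obtain ⟨ν, ρ, S⟩ := py.psc
  have z : ∀ u, bz d u = 0 := fun u => funext₂ fun k y => by
    simp [bz, Subsingleton.elim u 0]; rfl
  refine ⟨fun u => ?_, fun u _ => Subsingleton.elim _ _, fun η hη => ⟨0, (z 0).trans (funext₂ fun k y =>
    ((Sym93.har_dec S hβ hη).2 k y).trans (Fin.sum_univ_zero _)).symm⟩⟩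
  rw [z]
  exact ⟨⟨fun _ => contMDiff_const, fun _ _ => zero_mem _, by simp⟩,
    by simp [Rdc90.ed, nab, Pi.zero_def], by simp [Rdc90.dv1, nab, Pi.zero_def]⟩

end Crest.Agent.X212.Nkp12
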