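import Crest.Agent.X212.Nkp12.Gen
import Crest.Agent.X212.Dg64.Rig

/-!
# Row 212, DG-STABP (helper12), part 2: a one-dimensional stabiliser on the cross-section
-/

set_option autoImplicit false
set_option linter.unusedSectionVars false
noncomputable section
open Set Function Filter Topology MeasureTheory Real
open scoped ContDiff Manifold InnerProductSpace

namespace Crest.Agent.X212.Nkp12
open An An.Pre Sob92 Wz78 Pj41 Nd18 Cyf70 Clr59 Sym93 Bki64
open Rdc90 (Bs Har bh)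
open Rf65 (Psc ParY dz PY ctr)

theorem exists_ang {t c : ℝ} (h : t ^ 2 + c ^ 2 = 1) : ∃ θ, cos θ = t ∧ sin θ = c := by
  have n : ‖(⟨t, c⟩ : ℂ)‖ = 1 := by rw [Complex.norm_def, Complex.normSq_mk, ← sq, ← sq, h, sqrt_one]
  have z : (⟨t, c⟩ : ℂ) ≠ 0 := norm_ne_zero_iff.1 (n.trans_ne one_ne_zero)
  exact ⟨Complex.arg ⟨t, c⟩, by rw [Complex.cos_arg z, n, div_one], by rw [Complex.sin_arg, n, div_one]⟩

theorem in_ne {n : ℕ} {g r : En (Fin n)} (h : Std94.hs r r = 16)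
    (k : ‖g - r‖ ≤ (‖(hsL : CL (En (Fin n)) _)‖ + 1)⁻¹) : ⟪hsL g, hsL r⟫_ℝ ≠ 0 := fun e => by
  rw [← Std94.inner_hs] at h
  have n2 : ‖hsL r‖ = 4 := by
    rw [real_inner_self_eq_norm_sq] at h
    nlinarith [norm_nonneg (hsL r)]
  have n3 : ‖hsL (g - r)‖ ≤ 1 := (hsL.le_of_opNorm_le_of_le le_rfl k).trans
    (by rw [← div_eq_mul_inv, div_le_one (by positivity)]; linarith)
  have n4 := abs_real_inner_le_norm (hsL (g - r)) (hsL r)
  rw [map_sub, inner_sub_left, h, e, ← map_sub, n2] at n4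
  norm_num at n4
  rw [← map_sub] at n4
  linarith

section alg
variable {A : Type} [Ring A] [Algebra ℝ A] {p X d w g : A} {t c : ℝ}

theorem alg1 (p1 : p * p = p) (p2 : X * p = X) (p3 : p * X = X) (sq : X * X = -p) :
    (t • p - c • X) * (t • p + c • X) = (t ^ 2 + c ^ 2) • p := by
  simp only [sub_mul, mul_add, smul_mul_assoc, mul_smul_comm, p1, p2, p3, sq]
  module

theorem alg2 (p2 : X * p = X) (p3 : p * X = X) : X * (t • p + c • X) = (t • p + c • X) * X := by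
  simp only [mul_add, add_mul, smul_mul_assoc, mul_smul_comm, p2, p3]

theorem alg3 (k : d + w * g - g * w = 0) (e : X * g = g * X) :
    d + (w + c • X) * g - g * (w + c • X) = 0 := Stp12.alg (a := 0) (by simpa using k) e _

theorem alg4 (k : d + (w + X) * g - g * w = 0) : d + w * g - g * w = -(X * g) := by
  rw [eq_neg_iff_add_eq_zero, ← k, add_mul]; abel

end alg

variable {E3 : Type} [NormedAddCommGroup E3] [NormedSpace ℝ E3] [FiniteDimensional ℝ E3]
  [MeasurableSpace E3] [BorelSpace E3]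
  {H3 : Type} [TopologicalSpace H3] {I3 : ModelWithCorners ℝ E3 H3} [I3.Boundaryless]
  {Y : Type} [TopologicalSpace Y] [ChartedSpace H3 Y] [IsManifold I3 ∞ Y] [T2Space Y]
  [MeasurableSpace Y] [BorelSpace Y] [SecondCountableTopology Y] [CompactSpace Y] [ConnectedSpace Y]
  {κ : Type} [Fintype κ] {lam : Type} [Fintype lam] {D : YD I3 Y κ lam} {β β' : YC Y κ lam}
  {ξ : Y → β.m.A} {η : κ → Y → β.m.A} {ζ : Circle} {θ : ℝ}

theorem exists_max {n : ℕ} {u v : Y × ℝ → En (Fin n)} (hu : Continuous u) (hv : Continuous v) :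
    ∃ y, ∀ y', ⟪hsL (u (y', 0)), hsL (v (y', 0))⟫_ℝ ≤ ⟪hsL (u (y, 0)), hsL (v (y, 0))⟫_ℝ :=
  Continuous.exists_forall_ge (f := fun y => ⟪hsL (u (y, 0)), hsL (v (y, 0))⟫_ℝ) (by fun_prop)
    (by simp)

variable (D β ξ) in
/-- the generator of the stabiliser -/
structure Gn : Prop extends Bs D β where
  par : ParY D β ξ
  nrm : ∀ y, ‖ξ y‖ = 4
  gen : ∀ ξ', ParY D β ξ' → ∃ c : ℝ, ξ' = c • ξ

theorem exists_gn (H : Bs D β) (h1 : dz D β = 1) : ∃ ξ, Gn D β ξ := by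
  obtain ⟨⟨v, p⟩, h0, h⟩ := (finrank_eq_one_iff' (K := ℝ) (V := parS D β)).1 (dz_def.symm.trans h1)
  obtain ⟨y₀, h2⟩ := Function.ne_iff.1 fun z : v = 0 => h0 (Subtype.ext z)
  have h3 : ‖v y₀‖ ≠ 0 := norm_ne_zero_iff.2 h2
  refine ⟨(4 / ‖v y₀‖) • v, H, (parS D β).smul_mem _ p, fun y => ?_, fun ξ' p' => ?_⟩
  · rw [Pi.smul_apply, norm_smul, norm_par H.ok H.adm p y y₀, Real.norm_of_nonneg (by positivity),
      div_mul_cancel₀ _ h3]
  · obtain ⟨c, hc⟩ := h ⟨ξ', p'⟩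
    refine ⟨c * (‖v y₀‖ / 4), (congrArg Subtype.val hc).symm.trans ?_⟩
    rw [smul_smul, mul_assoc, div_mul_div_cancel₀' h3, div_self four_ne_zero, mul_one]
    rfl

theorem stb_ps {g : Y → CL β.m.V β'.m.V} (hD : D.OK) (A : D.Adm β) (A' : D.Adm β')
    (h : Stb D β β' g ζ) : PS D.G (cy β).W (cy β').W univ fun x => g x.1 :=
  ps_iso (ad_cy hD A) (ad_cy hD A') isOpen_univ h.iso fun x _ a => h.par a x

namespace Gn
variable (G : Gn D β ξ)
include G

theorem ad : Ad D.B D.G (cy β).W := ad_cy G.ok G.adm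

theorem ax : Ax D.G (cy β).W (fun x => ξ x.1) univ :=
  have r := red_of G.ok G.adm G.par G.nrm
  ⟨r.sm, r.mem, r.par, fun x _ => r.sq x, fun _ h => (h trivial).elim⟩

theorem rin (y : Y) : rot ξ θ y = cos θ • β.m.p y + sin θ • opL (ξ y) :=
  G.ax.rin (x := (y, 0)) trivial

theorem sq (y : Y) : opL (ξ y) * opL (ξ y) = -β.m.p y := G.ax.sq (y, 0) trivial

theorem p1 (y : Y) : β.m.p y * β.m.p y = β.m.p y := G.ad.ok.pidem (y, 0)

theorem p2 (y : Y) : opL (ξ y) * β.m.p y = opL (ξ y) :=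
  g_p' (m := (cy β).m) (x := (y, 0)) G.ad.ok (G.par.mem y)

theorem p_ne (y : Y) : β.m.p y ≠ 0 := fun e => by
  have : LinearMap.trace ℝ _ (β.m.p y : β.m.V →ₗ[ℝ] β.m.V) = 16 := G.ad.ok.prk (y, 0)
  simp [e] at this

/-- the stabiliser consists of rotations -/
theorem stb_rot {g : Y → CL β.m.V β.m.V} (h : Stb D β β g ζ) : ∃ θ, ∀ y, g y = rot ξ θ y := by
  have k := stb_ps G.ok G.adm G.adm h
  obtain ⟨t, b, b1, b2, b3, hs⟩ := Stp12.dec G.ad k
  obtain ⟨c, hc⟩ := G.gen _ (par_slice (β := β) b1 b2 b3 0)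
  obtain ⟨y⟩ : Nonempty Y := inferInstance
  have e : g y = t (y, 0) • β.m.p y + opL (c • ξ y) :=
    (hs (y, 0)).trans (congrArg (fun v : β.m.A => t (y, 0) • β.m.p y + opL v) (congrFun hc y))
  have u : trn (g y) ∘L g y = β.m.p y := by
    rw [← ad_trn]; exact (h.iso.iso (y, 0) trivial).src
  have tr : trn (t (y, 0) • β.m.p y + opL (c • ξ y)) = t (y, 0) • β.m.p y - opL (c • ξ y) :=
    Std94.trn_comm (Std94.pmx G.ad.ok (y, 0)) _ (Submodule.smul_mem _ c (G.par.mem y))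
  rw [e, tr, map_smul] at u
  have u' := (alg1 (G.p1 y) (G.p2 y) (g_p (G.par.mem y)) (G.sq y)).symm.trans u
  obtain ⟨θ, h1, h2⟩ := exists_ang (t := t (y, 0)) (c := c)
    (smul_left_injective ℝ (G.p_ne y) (u'.trans (one_smul _ _).symm))
  have e' : g y = rot ξ θ y := by rw [G.rin, h1, h2, e, map_smul]
  exact ⟨θ, fun y' => k.eqOn (G.ax.ps (θ := θ) G.ad) G.ad G.ad isOpen_univ isPreconnected_univ
    Subset.rfl (mem_univ (y, 0)) e' (mem_univ (y', 0))⟩

/-- almost parallel automorphisms are close to rotations -/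
theorem near_rot {α : Type} {𝒰 : Ultrafilter α} {t : α → Y × ℝ → En (Fin β.m.N)} {s : α → ℝ}
    (h : ∀ ε > 0, ∀ᶠ n in (𝒰 : Filter α), Iso0 (IC I3) (cy β).m (cy β).m (win Y (s n) 1) (t n) ∧
      ∀ a, ∀ x ∈ win Y (s n) 1, ‖cov D.Z (cy β) (cy β) (t n) a x‖ ≤ ε) :
    ∃ θ, ∀ ε > 0, ∀ᶠ n in (𝒰 : Filter α), ∀ y, ‖t n (y, s n) - rot ξ θ y‖ ≤ ε := by
  obtain ⟨g, _, h1, -, h2⟩ := Dg64.rig1 (ξ := fun _ => 1) G.adm G.adm one_pos fun ε hε =>
    (h ε hε).mono fun n k => ⟨win_op _ _, k.1, fun a x hx => ⟨fsm_dA (k.1.su x hx)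
      (G.ad.cn.cc.sm a x) (G.ad.cn.cc.sm a x), (ContinuousLinearMap.opNorm_comp_le _ _).trans
        ((mul_le_of_le_one_right (norm_nonneg _) (ad_trn (t n x) ▸ norm_iso
          (k.1.iso x hx).symm)).trans (k.2 a x hx))⟩, by
      have e : (fun x => dP (cy β) (cy β) (t n) 1 x) = fun _ => 0 := funext fun x => by
        rw [dP, show (cy β).Φ x = 0 from G.zr _]; simp [cs]
      exact e ▸ fun x _ => ⟨contMDiffAt_const, by simpa using hε.le⟩⟩
  obtain ⟨θ, e⟩ := G.stb_rot h1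
  exact ⟨θ, fun ε hε => (h2 ε hε).mono fun n k y => e y ▸ k y⟩

variable {b : ℕ} (py : PY D b) (hη : Har D β η)
include py hη

theorem form : ∃ f : Option κ → Y × ℝ → ℝ,
    (∀ a x, (cy (bh β η 0)).W a x = β.W a x.1 + f a x • opL (ξ x.1)) ∧
      ∀ x, (∀ a, f a x = 0) → η = 0 := by
  obtain ⟨ν, ρ, S⟩ := py.psc
  obtain ⟨h1, h2⟩ := har_dec S G.toBs hη
  choose c hc using fun i => G.gen _ (h1 i)
  have e : ∀ k y, η k y = (∑ i, ν i k y * c i) • ξ y := fun k y => by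
    simp only [h2 k y, hc, Pi.smul_apply, smul_smul, Finset.sum_smul]
  refine ⟨fun a x => a.elim 0 fun k => ∑ i, ν i k x.1 * c i, fun a x => ?_, fun x h => ?_⟩
  · change β.W a x.1 + opL (a.elim 0 fun k => η k x.1) = β.W a x.1 + _
    cases a <;> simp [e]
  · have z : ∀ j, c j = 0 := fun j => by
      have : ∑ k, ν j k x.1 * ∑ i, ν i k x.1 * c i = 0 :=
        Finset.sum_eq_zero fun k _ => mul_eq_zero_of_right _ (h (some k))
      simp only [Finset.mul_sum, ← mul_assoc] at this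
      rw [Finset.sum_comm] at this
      simpa [← Finset.sum_mul, S.ort] using this
    exact funext₂ fun k y => by simp [e, z]

/-- rotations fix the moving limits -/
theorem rot_stb : Stb D (bh β η 0) (bh β η 0) (rot ξ θ) ζ := by
  obtain ⟨f, h1, -⟩ := G.form py hη
  refine ⟨G.ax.iso G.ad, fun a x => ?_, fun y => ?_⟩
  · have k := (G.ax.ps (θ := θ) G.ad).par x trivial a
    have c : opL (ξ x.1) * rot ξ θ x.1 = rot ξ θ x.1 * opL (ξ x.1) := by
      rw [G.rin]; exact alg2 (G.p2 _) (g_p (G.par.mem _))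
    rw [Bki64.cov, h1]
    exact alg3 k c
  · have z : (bh β η 0).Φ y = 0 := (add_zero _).trans (G.zr y)
    rw [z]; simp [cs]

/-- an isomorphism close to a rotation does not move the limit -/
theorem of_near {g : Y → CL β.m.V β.m.V} (h : Stb D β (bh β η 0) g ζ) (h6 : ∀ y,
    ‖g y - rot ξ θ y‖ ≤ (‖(hsL : CL (En (Fin β.m.N)) β.m.A)‖ + 1)⁻¹) : η = 0 := by
  obtain ⟨f, f1, f2⟩ := G.form py hη
  have kX := ps_par G.ok G.adm G.par
  have kg := G.ax.ps (θ := θ) G.ad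
  have su : Sm (IC I3) fun x : Y × ℝ => g x.1 := fun x => h.iso.su x trivial
  have s1 : Sm (IC I3) fun x : Y × ℝ => opL (ξ x.1) ∘L rot ξ θ x.1 := fun x =>
    (kg.comp kX).sm x trivial
  obtain ⟨y, hy⟩ := exists_max su.continuous s1.continuous
  have i := (G.ax.iso (θ := θ) G.ad).iso (y, 0) trivial
  have l : β.m.p y * rot ξ θ y = rot ξ θ y := i.left
  have sq : opL (ξ y) * (opL (ξ y) * rot ξ θ y) = -rot ξ θ y := by
    rw [← mul_assoc, G.sq, neg_mul, l]
  have n : Std94.hs (rot ξ θ y) (rot ξ θ y) = 16 := by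
    refine Std94.hs_of_iso (m := (cy β).m) (m' := (cy β).m) (Std94.pmx G.ad.ok (y, 0)) ?_
    rw [← ad_trn]; exact i.src
  have k := max_arg (m := (cy β).m) (x := (y, 0)) (c := f)
    (W' := (cy (bh β η 0)).W) G.ad su (fun x _ a => h.par a x) f1 kX kg (G.par.mem y).1 sq
    (.of_forall fun x => hy x.1)
  exact f2 (y, 0) fun a => (mul_eq_zero.1 (k a)).resolve_right (in_ne n (h6 y))

omit hη in
/-- **small harmonic forms are a slice** -/
theorem slice : ∃ ε > 0, ∀ η, Har D β η → (∀ k y, ‖η k y‖ ≤ ε) →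
    ∀ (g : Y → CL β.m.V β.m.V) ζ, Stb D β (bh β η 0) g ζ → η = 0 := by
  by_contra! H
  choose η h1 h2 g ζ h3 h4 using fun n : ℕ => H _ (Nat.one_div_pos_of_nat (α := ℝ) (n := n))
  set T : β.m.A →L[ℝ] En (Fin β.m.N) := opL
  set S : En (Fin β.m.N) →L[ℝ] β.m.A := hsL
  obtain ⟨θ, h5⟩ := G.near_rot (𝒰 := hyperfilter ℕ) (t := fun n x => g n x.1) (s := fun _ => 0)
    fun ε hε => ((((tendsto_one_div_add_atTop_nhds_zero_nat (𝕜 := ℝ)).const_mul ‖T‖).eventually
      (ge_mem_nhds ((mul_zero _).trans_lt hε))).filter_mono Nat.hyperfilter_le_atTop).mono fun n k =>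
      ⟨(h3 n).iso.mono (subset_univ _), fun a x _ => by
        have e' : cov D.Z (cy β) (cy β) (fun x => g n x.1) a x =
            -(T (a.elim 0 fun k => η n k x.1) ∘L g n x.1) := alg4 ((h3 n).par a x)
        refine le_of_eq_of_le ((congrArg norm e').trans (norm_neg _))
          ((ContinuousLinearMap.opNorm_comp_le _ _).trans ((mul_le_of_le_one_right
          (norm_nonneg _) (norm_iso ((h3 n).iso.iso x trivial))).trans
          ((T.le_of_opNorm_le_of_le le_rfl ?_).trans k)))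
        cases a
        · exact norm_zero.trans_le Nat.one_div_pos_of_nat.le
        · exact h2 n _ _⟩
  obtain ⟨n, h6⟩ := (h5 _ (inv_pos.2 (show 0 < ‖S‖ + 1 by positivity))).exists
  exact h4 n (G.of_near py (h1 n) (h3 n) h6)

end Gn

end Crest.Agent.X212.Nkp12
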